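import Vale.Agent.P002b.Foam

/-! Surface systems, flags, classes and the arithmetic hypotheses on the ring `O`. -/

namespace Vale.Agent.P002b

open Matrix Polynomial

section ring

variable {n R : Type} [Fintype n] [DecidableEq n] [CommRing R]

/-- Quadruples `(a, a', b, b')`; `a'` and `b'` stand for the inverses. -/
abbrev Qd (n R : Type) := Matrix n n R × Matrix n n R × Matrix n n R × Matrix n n R

def QInv (q : Qd n R) : Prop := q.1 * q.2.1 = 1 ∧ q.2.2.1 * q.2.2.2 = 1

/-- The commutator `a b a' b'`. -/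
def cm (q : Qd n R) : Matrix n n R := q.1 * q.2.2.1 * q.2.1 * q.2.2.2

/-- The conjugate `a b a'`. -/
def pc (q : Qd n R) : Matrix n n R := q.1 * q.2.2.1 * q.2.1

/-- Twisted representations of a closed surface group of genus `γ`. -/
def Surf (n R : Type) [Fintype n] [DecidableEq n] [CommRing R] (γ : ℕ) (c : R) :
    Set (Fin γ → Qd n R) :=
  {x | (∀ i, QInv (x i)) ∧ (List.ofFn fun i => cm (x i)).prod = c • (1 : Matrix n n R)}

/-- Block upper triangular matrices for the levels `ℓ` with scalar diagonal blocks `ν`. -/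
def Flag (ℓ : n → ℕ) (ν : ℕ → R) : Set (Matrix n n R) :=
  {τ | ∀ i k, ℓ k ≤ ℓ i → τ i k = if i = k then ν (ℓ k) else 0}

/-- Representations of a punctured surface with flagged boundary monodromy. -/
def Punc (g s : ℕ) (ℓ : Fin s → n → ℕ) (ν : Fin s → ℕ → R) (c : R) :
    Set ((Fin g → Qd n R) × (Fin s → Qd n R)) :=
  {x | (∀ i, QInv (x.1 i)) ∧ (∀ j, QInv (x.2 j) ∧ (x.2 j).2.2.1 ∈ Flag (ℓ j) (ν j)) ∧
    (List.ofFn fun i => cm (x.1 i)).prod * (List.ofFn fun j => pc (x.2 j)).prod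
      = c • (1 : Matrix n n R)}

/-- The general linear group as pairs of inverse matrices. -/
def GLs (n R : Type) [Fintype n] [DecidableEq n] [CommRing R] :
    Set (Matrix n n R × Matrix n n R) := {p | p.1 * p.2 = 1}

def Conj (A B : Matrix n n R) : Prop := ∃ h h' : Matrix n n R, h * h' = 1 ∧ B = h * A * h'

/-- The polynomial with roots `μ 0, …, μ (k-1)`. -/
noncomputable def np (μ : ℕ → R) (k : ℕ) : R[X] := ∏ j ∈ Finset.range k, (X - C (μ j))

/-- The flag of `ℓ` is exactly the flag of kernels. -/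
def Exact (ℓ : n → ℕ) (μ : ℕ → R) (τ : Matrix n n R) : Prop :=
  ∀ (k : ℕ) (v : n → R), aeval τ (np μ k) *ᵥ v = 0 ↔ ∀ i, k ≤ ℓ i → v i = 0

/-- Generators `a_i`, `b_i`, `c_j`. -/
abbrev Gen (g s : ℕ) := Fin g ⊕ Fin g ⊕ Fin s

abbrev Tup (σ n R : Type) := σ → Matrix n n R × Matrix n n R

/-- The surface relator evaluated on a tuple. -/
def rel {g s : ℕ} (x : Tup (Gen g s) n R) : Matrix n n R :=
  (List.ofFn fun i => (x (.inl i)).1 * (x (.inr (.inl i))).1 * (x (.inl i)).2 *
    (x (.inr (.inl i))).2).prod * (List.ofFn fun j => (x (.inr (.inr j))).1).prod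

/-- Representations with the classes `C j` at the punctures `j ∈ T`. -/
def Cls (g : ℕ) {s : ℕ} (T : Set (Fin s)) (C : Fin s → Matrix n n R) : Set (Tup (Gen g s) n R) :=
  {x | (∀ γ, (x γ).1 * (x γ).2 = 1) ∧ rel x = 1 ∧ ∀ j ∈ T, Conj (C j) (x (.inr (.inr j))).1}

def Inv {σ : Type} (x : Tup σ n R) (W : Submodule R (n → R)) : Prop :=
  ∀ γ, ∀ v ∈ W, (x γ).1 *ᵥ v ∈ W

def Irr {σ : Type} (x : Tup σ n R) : Prop := ∀ W, Inv x W → W = ⊥ ∨ W = ⊤

def SS {σ : Type} (x : Tup σ n R) : Prop := ∀ W, Inv x W → ∃ W', Inv x W' ∧ IsCompl W W'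

end ring

section pm

variable {O K X n : Type} [CommRing O] [Field K] [Algebra O K] [Aff K X] [Fintype n]

@[fun_prop] lemma IsP.cm {f : X → Qd n K} (hf : IsP K f) : IsP K (fun x => cm (f x)) := by
  unfold P002b.cm; fun_prop

@[fun_prop] lemma PM.cm {f : X → Qd n K} (hf : PM O K f) : PM O K (fun x => cm (f x)) := by
  unfold P002b.cm; fun_prop

@[fun_prop] lemma IsP.pc {f : X → Qd n K} (hf : IsP K f) : IsP K (fun x => pc (f x)) := by
  unfold P002b.pc; fun_prop

@[fun_prop] lemma PM.pc {f : X → Qd n K} (hf : PM O K f) : PM O K (fun x => pc (f x)) := by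
  unfold P002b.pc; fun_prop

end pm

/-- There is a unit of infinite order. -/
def HasUnit (O : Type) [CommRing O] : Prop := ∃ u : Oˣ, ∀ k : ℕ, 0 < k → u ^ k ≠ 1

lemma HasUnit.infinite {O : Type} [CommRing O] (h : HasUnit O) : Infinite O := by
  obtain ⟨u, hu⟩ := h
  have : ¬ IsOfFinOrder u := fun e => by
    obtain ⟨k, hk, e⟩ := isOfFinOrder_iff_pow_eq_one.1 e
    exact hu k hk e
  exact Infinite.of_injective (fun k : ℕ => ((u ^ k : Oˣ) : O))
    (Units.val_injective.comp (injective_pow_iff_not_isOfFinOrder.2 this))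

variable (O K : Type) [CommRing O] [Field K] [Algebra O K]

/-- Density for closed surfaces of genus at least two in ranks from two to `r`. -/
def BigS (r : ℕ) : Prop :=
  ∀ (n : Type) [Fintype n] [DecidableEq n], 2 ≤ Fintype.card n → Fintype.card n ≤ r →
    ∀ (γ : ℕ) (c : K), Dn O K (Surf n K (γ + 2) c)

/-- Density for closed surfaces in rank `m`. -/
def ClosedS (m : ℕ) : Prop :=
  ∀ (n : Type) [Fintype n] [DecidableEq n], Fintype.card n = m → ∀ (γ : ℕ) (c : Oˣ),
    Dn O K (Surf n K γ (algebraMap O K c))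

/-- All eigenvalues are units of `O`. -/
def EigU {K n : Type} [Field K] [Algebra O K] [Fintype n] [DecidableEq n] (A : Matrix n n K) :
    Prop := ∀ μ, A.charpoly.IsRoot μ → ∃ u : Oˣ, algebraMap O K u = μ

end Vale.Agent.P002b
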